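import Mathlib

/-!
# P141: abstract dyadic chaining (T2) and window inequality (T3)

Pure-number form of the chaining lemma: `g k l s` plays the role of `B_l (f^s) - B_k (f^s)`.
-/

namespace Vale.Agent.P141.H317

open Finset

/-- `sqrt a ≤ sqrt b + sqrt q` gives `a ≤ (1+η) b + (1+1/η) q`. -/
theorem le_of_sqrt_le {a b q η : ℝ} (ha : 0 ≤ a) (hb : 0 ≤ b) (hq : 0 ≤ q) (hη : 0 < η)
    (h : Real.sqrt a ≤ Real.sqrt b + Real.sqrt q) :
    a ≤ (1 + η) * b + (1 + η⁻¹) * q := by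
  have h1 : a ≤ (Real.sqrt b + Real.sqrt q) ^ 2 := by
    calc a = Real.sqrt a ^ 2 := (Real.sq_sqrt ha).symm
      _ ≤ _ := pow_le_pow_left₀ (Real.sqrt_nonneg a) h 2
  have hb2 := Real.sq_sqrt hb
  have hq2 := Real.sq_sqrt hq
  set x := Real.sqrt b
  set y := Real.sqrt q
  have h2 : 2 * (x * y) ≤ η * x ^ 2 + η⁻¹ * y ^ 2 := by
    have h3 : 0 ≤ η * (x - η⁻¹ * y) ^ 2 := mul_nonneg hη.le (sq_nonneg _)
    have h4 : η * (x - η⁻¹ * y) ^ 2 = η * x ^ 2 - 2 * (x * y) + η⁻¹ * y ^ 2 := by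
      field_simp
      ring
    linarith
  calc a ≤ (x + y) ^ 2 := h1
    _ = x ^ 2 + y ^ 2 + 2 * (x * y) := by ring
    _ ≤ x ^ 2 + y ^ 2 + (η * x ^ 2 + η⁻¹ * y ^ 2) := by linarith
    _ = (1 + η) * b + (1 + η⁻¹) * q := by rw [hb2, hq2]; ring

theorem sum_range_two_mul (n : ℕ) (f : ℕ → ℝ) :
    ∑ i ∈ range (2 * n), f i = ∑ i ∈ range n, (f (2 * i) + f (2 * i + 1)) := by
  induction n with
  | zero => simp
  | succ n ih =>
    rw [show 2 * (n + 1) = 2 * n + 1 + 1 by ring, sum_range_succ, sum_range_succ, ih,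
      sum_range_succ]
    ring

theorem one_add_inv_pow_le (J : ℕ) : (1 + (J : ℝ)⁻¹) ^ J ≤ 3 := by
  rcases Nat.eq_zero_or_pos J with rfl | hJ
  · simp
  have hJ' : (0 : ℝ) < J := by exact_mod_cast hJ
  have h1 : 1 + (J : ℝ)⁻¹ ≤ Real.exp ((J : ℝ)⁻¹) := by
    have := Real.add_one_le_exp ((J : ℝ)⁻¹); linarith
  have h2 : (1 + (J : ℝ)⁻¹) ^ J ≤ Real.exp ((J : ℝ)⁻¹) ^ J :=
    pow_le_pow_left₀ (by positivity) h1 J
  have h3 : Real.exp ((J : ℝ)⁻¹) ^ J = Real.exp 1 := by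
    rw [← Real.exp_nat_mul]
    congr 1
    field_simp
  have h4 := Real.exp_one_lt_d9
  linarith

/-- **Chaining lemma, number form.** -/
theorem chain_real (g : ℕ → ℕ → ℕ → ℝ) (h0 : ∀ k l s, k ≤ l → 0 ≤ g k l s)
    (hadd : ∀ k l m s, k ≤ l → l ≤ m → g k l s + g l m s ≤ g k m s)
    (J : ℕ) (D : ℝ) (q : ℕ → ℕ → ℝ) (hq : ∀ j i, 0 ≤ q j i)
    (hlip : ∀ j, j < J → ∀ i, i < 2 ^ (J - 1 - j) →
      Real.sqrt (g ((2 * i + 1) * 2 ^ j) ((2 * i + 2) * 2 ^ j) ((2 * i + 1) * 2 ^ j))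
        ≤ Real.sqrt (g ((2 * i + 1) * 2 ^ j) ((2 * i + 2) * 2 ^ j) ((2 * i) * 2 ^ j))
          + Real.sqrt (q j i))
    (hD : ∀ j, j < J → ∑ i ∈ range (2 ^ (J - 1 - j)), q j i ≤ D) :
    ∑ k ∈ range (2 ^ J), g k (k + 1) k ≤ 3 * g 0 (2 ^ J) 0 + 3 * J * (J + 1) * D := by
  rcases Nat.eq_zero_or_pos J with rfl | hJ
  · have := h0 0 1 0 (by norm_num)
    simp
    linarith
  have hJ' : (0 : ℝ) < J := by exact_mod_cast hJ
  have hD0 : 0 ≤ D := le_trans (sum_nonneg fun i _ => hq 0 i) (hD 0 hJ)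
  set c : ℝ := 1 + (J : ℝ)⁻¹ with hc
  have hc1 : 1 ≤ c := by
    have : 0 ≤ (J : ℝ)⁻¹ := by positivity
    linarith
  set V : ℕ → ℝ := fun j => ∑ i ∈ range (2 ^ (J - j)), g (i * 2 ^ j) ((i + 1) * 2 ^ j) (i * 2 ^ j)
    with hV
  have hV0 : ∀ j, 0 ≤ V j := fun j => sum_nonneg fun i _ => h0 _ _ _ (by gcongr; omega)
  have hstep : ∀ j, j < J → V j ≤ c * V (j + 1) + (1 + J) * D := by
    intro j hj
    have e1 : J - j = (J - 1 - j) + 1 := by omega
    have e2 : J - (j + 1) = J - 1 - j := by omega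
    have hVj : V j = ∑ i ∈ range (2 ^ (J - 1 - j)),
        (g ((2 * i) * 2 ^ j) ((2 * i + 1) * 2 ^ j) ((2 * i) * 2 ^ j)
          + g ((2 * i + 1) * 2 ^ j) ((2 * i + 2) * 2 ^ j) ((2 * i + 1) * 2 ^ j)) := by
      simp only [hV]
      rw [e1, pow_succ, mul_comm, sum_range_two_mul]
    have hVj1 : V (j + 1) = ∑ i ∈ range (2 ^ (J - 1 - j)),
        g ((2 * i) * 2 ^ j) ((2 * i + 2) * 2 ^ j) ((2 * i) * 2 ^ j) := by
      simp only [hV]
      rw [e2]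
      refine sum_congr rfl fun i _ => ?_
      congr 1 <;> ring
    rw [hVj, hVj1]
    have hle : ∀ i ∈ range (2 ^ (J - 1 - j)),
        g ((2 * i) * 2 ^ j) ((2 * i + 1) * 2 ^ j) ((2 * i) * 2 ^ j)
          + g ((2 * i + 1) * 2 ^ j) ((2 * i + 2) * 2 ^ j) ((2 * i + 1) * 2 ^ j)
        ≤ c * g ((2 * i) * 2 ^ j) ((2 * i + 2) * 2 ^ j) ((2 * i) * 2 ^ j)
          + (1 + J) * q j i := by
      intro i hi
      have hi' := mem_range.mp hi
      have l1 : (2 * i) * 2 ^ j ≤ (2 * i + 1) * 2 ^ j := by gcongr; omega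
      have l2 : (2 * i + 1) * 2 ^ j ≤ (2 * i + 2) * 2 ^ j := by gcongr; omega
      have h1 := hadd _ _ _ ((2 * i) * 2 ^ j) l1 l2
      have h2 := le_of_sqrt_le (h0 _ _ _ l2) (h0 _ _ _ l2) (hq j i)
        (show (0 : ℝ) < (J : ℝ)⁻¹ by positivity) (hlip j hj i hi')
      rw [inv_inv] at h2
      have h3 := h0 ((2 * i) * 2 ^ j) ((2 * i + 1) * 2 ^ j) ((2 * i) * 2 ^ j) l1
      have h4 : g ((2 * i) * 2 ^ j) ((2 * i + 1) * 2 ^ j) ((2 * i) * 2 ^ j)
          ≤ c * g ((2 * i) * 2 ^ j) ((2 * i + 1) * 2 ^ j) ((2 * i) * 2 ^ j) :=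
        le_mul_of_one_le_left h3 hc1
      have h5 := mul_le_mul_of_nonneg_left h1 (by linarith : (0 : ℝ) ≤ c)
      rw [mul_add] at h5
      linarith
    calc _ ≤ ∑ i ∈ range (2 ^ (J - 1 - j)),
        (c * g ((2 * i) * 2 ^ j) ((2 * i + 2) * 2 ^ j) ((2 * i) * 2 ^ j)
          + (1 + J) * q j i) := sum_le_sum hle
      _ = c * (∑ i ∈ range (2 ^ (J - 1 - j)),
            g ((2 * i) * 2 ^ j) ((2 * i + 2) * 2 ^ j) ((2 * i) * 2 ^ j))
          + (1 + J) * ∑ i ∈ range (2 ^ (J - 1 - j)), q j i := by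
          rw [sum_add_distrib, mul_sum, mul_sum]
      _ ≤ _ := by
          have := mul_le_mul_of_nonneg_left (hD j hj) (by positivity : (0 : ℝ) ≤ 1 + J)
          linarith
  have hind : ∀ j, j ≤ J → V 0 ≤ c ^ j * V j + (1 + J) * D * j * c ^ j := by
    intro j
    induction j with
    | zero => intro _; simp
    | succ j ih =>
      intro hj
      have h1 := ih (by omega)
      have h2 := hstep j (by omega)
      have hcj : 0 ≤ c ^ j := by positivity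
      have h3 := mul_le_mul_of_nonneg_left h2 hcj
      have h4 : c ^ j ≤ c ^ (j + 1) := pow_le_pow_right₀ hc1 (by omega)
      have h5 : 0 ≤ (1 + (J : ℝ)) * D := by positivity
      have h6 : (1 + (J : ℝ)) * D * (j + 1) * c ^ j ≤ (1 + (J : ℝ)) * D * (j + 1) * c ^ (j + 1) :=
        mul_le_mul_of_nonneg_left h4 (by positivity)
      push_cast
      calc V 0 ≤ c ^ j * V j + (1 + J) * D * j * c ^ j := h1
        _ ≤ c ^ j * (c * V (j + 1) + (1 + J) * D) + (1 + J) * D * j * c ^ j := by linarith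
        _ = c ^ (j + 1) * V (j + 1) + (1 + J) * D * (j + 1) * c ^ j := by ring
        _ ≤ _ := by linarith
  have hfin := hind J le_rfl
  have hVJ : V J = g 0 (2 ^ J) 0 := by
    simp only [hV, Nat.sub_self, pow_zero, range_one, sum_singleton, zero_mul, zero_add, one_mul]
  have hV00 : V 0 = ∑ k ∈ range (2 ^ J), g k (k + 1) k := by
    simp only [hV, Nat.sub_zero, pow_zero, mul_one]
  have hcJ : c ^ J ≤ 3 := one_add_inv_pow_le J
  rw [← hV00]
  have h7 := mul_le_mul_of_nonneg_right hcJ (hV0 J)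
  have h8 := mul_le_mul_of_nonneg_left hcJ (by positivity : (0 : ℝ) ≤ (1 + (J : ℝ)) * D * J)
  rw [hVJ] at h7 hfin
  calc V 0 ≤ c ^ J * g 0 (2 ^ J) 0 + (1 + J) * D * J * c ^ J := hfin
    _ ≤ 3 * g 0 (2 ^ J) 0 + (1 + J) * D * J * 3 := by linarith
    _ = _ := by ring

/-- **Chaining lemma, functional form**: `B k` are functionals on `V`, increasing in `k`, with
`sqrt (B l - B k)` Lipschitz with respect to `sqrt Q`. -/
theorem chain_fun {V : Type*} [AddCommGroup V] (B : ℕ → V → ℝ) (Q : V → ℝ) (hQ : ∀ v, 0 ≤ Q v)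
    (hmono : ∀ k v, B k v ≤ B (k + 1) v)
    (hlip : ∀ k l v w, k ≤ l → Real.sqrt (B l (v + w) - B k (v + w))
      ≤ Real.sqrt (B l v - B k v) + Real.sqrt (Q w))
    (f : ℕ → V) (J : ℕ) (D : ℝ)
    (hD : ∀ j, j < J → ∑ i ∈ range (2 ^ (J - 1 - j)),
      Q (f ((2 * i + 1) * 2 ^ j) - f ((2 * i) * 2 ^ j)) ≤ D) :
    ∑ k ∈ range (2 ^ J), (B (k + 1) (f k) - B k (f k))
      ≤ 3 * (B (2 ^ J) (f 0) - B 0 (f 0)) + 3 * J * (J + 1) * D := by
  have hm : ∀ v, Monotone fun k => B k v := fun v => monotone_nat_of_le_succ fun k => hmono k v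
  refine chain_real (fun k l s => B l (f s) - B k (f s)) (fun k l s h => by
    have := hm (f s) h
    simp only at this ⊢
    linarith) (fun k l m s _ _ => by linarith) J D
    (fun j i => Q (f ((2 * i + 1) * 2 ^ j) - f ((2 * i) * 2 ^ j))) (fun j i => hQ _) ?_ hD
  intro j _ i _
  have hle : (2 * i + 1) * 2 ^ j ≤ (2 * i + 2) * 2 ^ j := by gcongr; omega
  have := hlip ((2 * i + 1) * 2 ^ j) ((2 * i + 2) * 2 ^ j) (f ((2 * i) * 2 ^ j))
    (f ((2 * i + 1) * 2 ^ j) - f ((2 * i) * 2 ^ j)) hle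
  rw [add_sub_cancel] at this
  exact this

/-- Version for `n ≤ 2 ^ J` scales: the functionals and the path stop at `n`. -/
theorem chain_fun' {V : Type*} [AddCommGroup V] (n : ℕ) (B : ℕ → V → ℝ) (Q : V → ℝ)
    (hQ : ∀ v, 0 ≤ Q v)
    (hmono : ∀ k v, k < n → B k v ≤ B (k + 1) v)
    (hlip : ∀ k l v w, k ≤ l → l ≤ n → Real.sqrt (B l (v + w) - B k (v + w))
      ≤ Real.sqrt (B l v - B k v) + Real.sqrt (Q w))
    (f : ℕ → V) (J : ℕ) (hJ : n ≤ 2 ^ J) (D : ℝ)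
    (hD : ∀ j, j < J → ∑ i ∈ range (2 ^ (J - 1 - j)),
      Q (f (min ((2 * i + 1) * 2 ^ j) n) - f (min ((2 * i) * 2 ^ j) n)) ≤ D) :
    ∑ k ∈ range n, (B (k + 1) (f k) - B k (f k))
      ≤ 3 * (B n (f 0) - B 0 (f 0)) + 3 * J * (J + 1) * D := by
  have h := chain_fun (fun k v => B (min k n) v) Q hQ (fun k v => by
      rcases lt_or_ge k n with h | h
      · rw [min_eq_left h.le, min_eq_left (by omega : k + 1 ≤ n)]
        exact hmono k v h
      · rw [min_eq_right h, min_eq_right (by omega : n ≤ k + 1)])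
    (fun k l v w hkl => hlip _ _ v w (by omega) (by omega))
    (fun k => f (min k n)) J D hD
  simp only [Nat.zero_min] at h
  rw [min_eq_right hJ] at h
  refine le_trans (le_of_eq ?_) h
  rw [← sum_subset (range_subset_range.mpr hJ)]
  · refine sum_congr rfl fun k hk => ?_
    have hk' := mem_range.mp hk
    rw [min_eq_left (by omega : k ≤ n), min_eq_left (by omega : k + 1 ≤ n)]
  · intro k _ hk
    have hk' : n ≤ k := by simpa using hk
    rw [min_eq_right hk', min_eq_right (by omega : n ≤ k + 1)]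
    ring

/-! ### window inequality -/

section window

variable {E : Type*} [NormedAddCommGroup E] [InnerProductSpace ℝ E]

/-- If `D = G - G'` is a sum of births whose total weight is at most the energy drop and `G'` is
uniform against them, then `‖D‖² ≤ 3 (‖G‖² - ‖G'‖²)`. -/
theorem window {G G' : E} {W : ℝ} (h1 : |inner ℝ G' (G - G')| ≤ W)
    (h2 : W ≤ ‖G‖ ^ 2 - ‖G'‖ ^ 2) : ‖G - G'‖ ^ 2 ≤ 3 * (‖G‖ ^ 2 - ‖G'‖ ^ 2) := by
  have e : ‖G‖ ^ 2 = ‖G'‖ ^ 2 + 2 * inner ℝ G' (G - G') + ‖G - G'‖ ^ 2 := by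
    have := norm_add_sq_real G' (G - G')
    rwa [add_sub_cancel] at this
  have := (abs_le.mp h1).1
  linarith

omit [InnerProductSpace ℝ E] in
/-- dyadic window sums from the window inequality. -/
theorem window_sum (G : ℕ → E) (J : ℕ)
    (hw : ∀ k l, k ≤ l → ‖G k - G l‖ ^ 2 ≤ 3 * (‖G k‖ ^ 2 - ‖G l‖ ^ 2)) :
    ∀ j, j < J → ∑ i ∈ range (2 ^ (J - 1 - j)),
      ‖G ((2 * i + 1) * 2 ^ j) - G ((2 * i) * 2 ^ j)‖ ^ 2 ≤ 3 * ‖G 0‖ ^ 2 := by
  intro j _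
  set a : ℕ → ℝ := fun k => ‖G k‖ ^ 2
  have hanti : ∀ k l, k ≤ l → a l ≤ a k := by
    intro k l h
    have h1 := hw k l h
    have h2 : 0 ≤ ‖G k - G l‖ ^ 2 := by positivity
    simp only [a]
    linarith
  have hle : ∀ i ∈ range (2 ^ (J - 1 - j)),
      ‖G ((2 * i + 1) * 2 ^ j) - G ((2 * i) * 2 ^ j)‖ ^ 2
        ≤ 3 * (a ((2 * i) * 2 ^ j) - a ((2 * (i + 1)) * 2 ^ j)) := by
    intro i _
    have l1 : (2 * i) * 2 ^ j ≤ (2 * i + 1) * 2 ^ j := by gcongr; omega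
    have l2 : (2 * i + 1) * 2 ^ j ≤ (2 * (i + 1)) * 2 ^ j := by gcongr; omega
    have h1 := hw _ _ l1
    rw [norm_sub_rev] at h1
    have h2 := hanti _ _ l2
    simp only [a] at h2 ⊢
    linarith
  refine le_trans (sum_le_sum hle) ?_
  rw [← mul_sum, sum_range_sub' (fun i => a ((2 * i) * 2 ^ j))]
  have : 0 ≤ a ((2 * 2 ^ (J - 1 - j)) * 2 ^ j) := by simp only [a]; positivity
  have h0 : a (2 * 0 * 2 ^ j) = ‖G 0‖ ^ 2 := by simp [a]
  rw [h0]
  linarith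

end window

end Vale.Agent.P141.H317
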